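import Vale.Agent.P112.Core

/-! Rotations about a centre turn the truncated transform along a Lipschitz field into one fixed direction. -/

open MeasureTheory Real Set Filter Complex ComplexConjugate FourierTransform LineDeriv SchwartzMap
open scoped Topology ENNReal NNReal RealInnerProductSpace SchwartzMap

namespace Vale.Agent.P112

/-- the unit vector of angle `φ` -/
noncomputable def unitV (φ : ℝ) : ℂ := Complex.exp (φ * Complex.I)

lemma continuous_unitV : Continuous unitV := by unfold unitV; fun_prop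

lemma norm_unitV (φ : ℝ) : ‖unitV φ‖ = 1 := Complex.norm_exp_ofReal_mul_I φ

/-- the angular derivative about `x₀`, as a Schwartz map -/
noncomputable def angD (x₀ : ℂ) (f : 𝓢(ℂ, ℂ)) : 𝓢(ℂ, ℂ) :=
  SchwartzMap.smulLeftCLM ℂ (fun z : ℂ => -((Complex.imCLM z : ℂ) - (x₀.im : ℂ))) (∂_{(1:ℂ)} f) +
    SchwartzMap.smulLeftCLM ℂ (fun z : ℂ => (Complex.reCLM z : ℂ) - (x₀.re : ℂ)) (∂_{Complex.I} f)

lemma angD_apply (x₀ : ℂ) (f : 𝓢(ℂ, ℂ)) (z : ℂ) :
    angD x₀ f z = fderiv ℝ f z (Complex.I * (z - x₀)) := by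
  have h1 : Function.HasTemperateGrowth (fun z : ℂ => -((Complex.imCLM z : ℂ) - (x₀.im : ℂ))) :=
    ((Complex.ofRealCLM.comp Complex.imCLM).hasTemperateGrowth.sub (.const _)).neg
  have h2 : Function.HasTemperateGrowth (fun z : ℂ => (Complex.reCLM z : ℂ) - (x₀.re : ℂ)) :=
    (Complex.ofRealCLM.comp Complex.reCLM).hasTemperateGrowth.sub (.const _)
  rw [angD, add_apply, SchwartzMap.smulLeftCLM_apply_apply h1, SchwartzMap.smulLeftCLM_apply_apply h2,
    SchwartzMap.lineDerivOp_apply_eq_fderiv, SchwartzMap.lineDerivOp_apply_eq_fderiv]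
  have e : Complex.I * (z - x₀) = (-(z.im - x₀.im)) • (1:ℂ) + (z.re - x₀.re) • Complex.I := by
    apply Complex.ext <;> simp
  rw [e, map_add, map_smul, map_smul]
  simp

/-- one rotation -/
noncomputable def rotT (ε a : ℝ) (x₀ : ℂ) (f : ℂ → ℂ) (φ : ℝ) (y : ℂ) : ℂ :=
  pairT ε a (unitV φ) f (x₀ + unitV φ * y)

lemma continuous_rotT {ε a : ℝ} (hε : 0 < ε) (x₀ : ℂ) {f : ℂ → ℂ} (hf : Continuous f) :
    Continuous fun p : ℝ × ℂ => rotT ε a x₀ f p.1 p.2 :=
  continuous_pairT hε hf (continuous_unitV.comp continuous_fst)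
    (continuous_const.add ((continuous_unitV.comp continuous_fst).mul continuous_snd))

lemma hasDerivAt_rotT {ε a : ℝ} (hε : 0 < ε) (x₀ : ℂ) (f : 𝓢(ℂ, ℂ)) (y : ℂ) (φ : ℝ) :
    HasDerivAt (fun φ => rotT ε a x₀ f φ y) (rotT ε a x₀ (angD x₀ f) φ y) φ := by
  set g := angD x₀ f
  have hd : ∀ (w : ℂ) (φ : ℝ), HasDerivAt (fun φ => f (x₀ + unitV φ * w)) (g (x₀ + unitV φ * w)) φ := fun w φ => by
    have h1 : HasDerivAt (fun φ : ℝ => x₀ + unitV φ * w) (Complex.I * (unitV φ * w)) φ := by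
      have h0 : HasDerivAt (fun t : ℝ => (t : ℂ) * Complex.I) Complex.I φ := by
        simpa using ((hasDerivAt_id φ).ofReal_comp).mul_const Complex.I
      simpa [unitV, mul_assoc, mul_comm, mul_left_comm] using (h0.cexp.mul_const w).const_add x₀
    have h2 := (f.differentiableAt (x := x₀ + unitV φ * w)).hasFDerivAt.comp_hasDerivAt φ h1
    rw [angD_apply, add_sub_cancel_left]
    exact h2
  have e : ∀ (h : ℂ → ℂ) (φ t : ℝ), h (x₀ + unitV φ * y - t • unitV φ) - h (x₀ + unitV φ * y + t • unitV φ) =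
      h (x₀ + unitV φ * (y - t)) - h (x₀ + unitV φ * (y + t)) := fun h φ t => by
    simp only [Complex.real_smul]; ring_nf
  simp only [rotT, pairT, e]
  have hk := continuous_kernel hε
  have hu := continuous_unitV
  have hc : ∀ (h : 𝓢(ℂ, ℂ)) (φ : ℝ),
      Continuous fun t : ℝ => (max ε t)⁻¹ • (h (x₀ + unitV φ * (y - t)) - h (x₀ + unitV φ * (y + t))) := fun h φ =>
    hk.smul ((h.continuous.comp (by fun_prop)).sub (h.continuous.comp (by fun_prop)))
  refine (intervalIntegral.hasDerivAt_integral_of_dominated_loc_of_deriv_le (μ := volume)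
    (bound := fun _ => ε⁻¹ * (2 * SchwartzMap.seminorm ℝ 0 0 g)) (s := univ) univ_mem
    (F' := fun φ t => (max ε t)⁻¹ • (g (x₀ + unitV φ * (y - t)) - g (x₀ + unitV φ * (y + t))))
    (Eventually.of_forall fun φ => (hc f φ).aestronglyMeasurable) ((hc f φ).intervalIntegrable _ _)
    (hc g φ).aestronglyMeasurable (Eventually.of_forall fun t _ φ' _ => ?_) intervalIntegrable_const
    (Eventually.of_forall fun t _ φ' _ => by
      exact ((hd (y - t) φ').sub (hd (y + t) φ')).const_smul ((max ε t)⁻¹))).2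
  rw [norm_smul, Real.norm_eq_abs, abs_inv, abs_of_pos (lt_max_of_lt_left hε), two_mul]
  exact mul_le_mul (inv_anti₀ hε (le_max_left _ _)) ((norm_sub_le _ _).trans
    (add_le_add (g.norm_le_seminorm ℝ _) (g.norm_le_seminorm ℝ _))) (norm_nonneg _) (inv_nonneg.2 hε.le)

/-- Sobolev on `[-π, π]` -/
lemma sobolev {h h' : ℝ → ℂ} (hh : ∀ φ, HasDerivAt h (h' φ) φ) (hc' : Continuous h') {s : ℝ} (hs : 0 < s)
    {φ : ℝ} (hφ : φ ∈ Icc (-π) π) :
    ‖h φ‖ ^ 2 ≤ ∫ θ in -π..π, (((2 * π)⁻¹ + s) * ‖h θ‖ ^ 2 + s⁻¹ * ‖h' θ‖ ^ 2) := by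
  have hcont : Continuous h := continuous_iff_continuousAt.2 fun x => (hh x).continuousAt
  have hle : -π ≤ π := by linarith [pi_pos]
  have hn2 : Continuous fun θ => ‖h θ‖ ^ 2 := hcont.norm.pow 2
  obtain ⟨φ₀, hφ₀, hmin⟩ := isCompact_Icc.exists_isMinOn (nonempty_Icc.2 hle) hn2.continuousOn
  have hd : ∀ θ, HasDerivAt (fun θ => ‖h θ‖ ^ 2) (2 * ⟪h θ, h' θ⟫) θ := fun θ => (hh θ).norm_sq
  have hdc : Continuous fun θ => 2 * ⟪h θ, h' θ⟫ := continuous_const.mul (hcont.inner hc')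
  have h1 : (2 * π) * ‖h φ₀‖ ^ 2 ≤ ∫ θ in -π..π, ‖h θ‖ ^ 2 := by
    have := intervalIntegral.integral_mono_on hle (intervalIntegrable_const (μ := volume))
      (hn2.intervalIntegrable _ _) fun θ hθ => hmin hθ
    rw [intervalIntegral.integral_const, smul_eq_mul] at this
    convert this using 1; ring
  have hB : Continuous fun θ => s * ‖h θ‖ ^ 2 + s⁻¹ * ‖h' θ‖ ^ 2 := by fun_prop
  have h2 : ‖h φ‖ ^ 2 - ‖h φ₀‖ ^ 2 ≤ ∫ θ in -π..π, (s * ‖h θ‖ ^ 2 + s⁻¹ * ‖h' θ‖ ^ 2) := by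
    rw [← intervalIntegral.integral_eq_sub_of_hasDerivAt (fun θ _ => hd θ) (hdc.intervalIntegrable φ₀ φ)]
    refine (le_abs_self _).trans ?_
    rw [← Real.norm_eq_abs]
    refine intervalIntegral.norm_integral_le_integral_norm_uIoc.trans ?_
    rw [intervalIntegral.integral_of_le hle]
    refine (setIntegral_mono_on hdc.norm.integrableOn_uIoc hB.integrableOn_uIoc measurableSet_uIoc
      fun θ _ => ?_).trans (setIntegral_mono_set (hB.integrableOn_Icc.mono_set Ioc_subset_Icc_self)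
      (Eventually.of_forall fun θ => by positivity) (Eventually.of_forall ?_))
    · rw [Real.norm_eq_abs, abs_mul, abs_two]
      have := abs_real_inner_le_norm (h θ) (h' θ)
      have e : s * ‖h θ‖ ^ 2 + s⁻¹ * ‖h' θ‖ ^ 2 - 2 * (‖h θ‖ * ‖h' θ‖) = s⁻¹ * (s * ‖h θ‖ - ‖h' θ‖) ^ 2 := by
        field_simp; ring
      nlinarith [show 0 ≤ s⁻¹ * (s * ‖h θ‖ - ‖h' θ‖) ^ 2 by positivity]
    · exact fun x hx => ⟨lt_of_le_of_lt (le_min hφ₀.1 hφ.1) hx.1, hx.2.trans (max_le hφ₀.2 hφ.2)⟩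
  have h3 : ‖h φ₀‖ ^ 2 ≤ (2 * π)⁻¹ * ∫ θ in -π..π, ‖h θ‖ ^ 2 := by
    rw [inv_mul_eq_div, le_div_iff₀' (by positivity)]; exact h1
  have e : ∫ θ in -π..π, (((2 * π)⁻¹ + s) * ‖h θ‖ ^ 2 + s⁻¹ * ‖h' θ‖ ^ 2) =
      (2 * π)⁻¹ * (∫ θ in -π..π, ‖h θ‖ ^ 2) + ∫ θ in -π..π, (s * ‖h θ‖ ^ 2 + s⁻¹ * ‖h' θ‖ ^ 2) := by
    rw [← intervalIntegral.integral_const_mul, ← intervalIntegral.integral_add
      ((continuous_const.fun_mul hn2).intervalIntegrable _ _) (hB.intervalIntegrable _ _)]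
    exact intervalIntegral.integral_congr fun θ _ => by ring
  linarith

/-- the change of variables -/
lemma lintegral_turn {v : ℂ → ℂ} (hv : LipschitzWith 1 v) (hv1 : ∀ x, ‖v x‖ = 1) (x₀ : ℂ) {F : ℂ → ℝ≥0∞}
    (hF : Measurable F) :
    ∫⁻ x in Metric.closedBall x₀ (1/2), F (conj (v x) * (x - x₀)) ≤ 4 * ∫⁻ y, F y := by
  set S := Metric.closedBall x₀ (1/2:ℝ)
  set Φ := fun x => conj (v x) * (x - x₀)
  have hΦ : Continuous Φ := by have := hv.continuous; fun_prop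
  have hlow : ∀ x ∈ S, ∀ y ∈ S, dist x y ≤ 2 * dist (Φ x) (Φ y) := fun x _ y hy => by
    rw [Metric.mem_closedBall, dist_eq_norm] at hy
    rw [dist_eq_norm, dist_eq_norm]
    have e : Φ x - Φ y = conj (v x) * (x - y) + (conj (v x) - conj (v y)) * (y - x₀) := by simp only [Φ]; ring
    have h1 : ‖conj (v x) * (x - y)‖ = ‖x - y‖ := by rw [norm_mul, Complex.norm_conj, hv1, one_mul]
    have h2 : ‖(conj (v x) - conj (v y)) * (y - x₀)‖ ≤ ‖x - y‖ * (1/2) := by
      rw [norm_mul, ← map_sub, Complex.norm_conj]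
      refine mul_le_mul ?_ hy (norm_nonneg _) (norm_nonneg _)
      simpa [dist_eq_norm] using hv.dist_le_mul x y
    have h3 := norm_sub_le (Φ x - Φ y) ((conj (v x) - conj (v y)) * (y - x₀))
    rw [e, add_sub_cancel_right, h1] at h3
    rw [e]
    linarith
  have hinj : InjOn Φ S := fun x hx y hy h => dist_le_zero.1 ((hlow x hx y hy).trans (by simp [h]))
  have hinv : LipschitzOnWith 2 (Function.invFunOn Φ S) (Φ '' S) := by
    refine LipschitzOnWith.of_dist_le_mul ?_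
    rintro _ ⟨x, hx, rfl⟩ _ ⟨y, hy, rfl⟩
    rw [hinj.leftInvOn_invFunOn hx, hinj.leftInvOn_invFunOn hy]
    exact_mod_cast hlow x hx y hy
  have hfin : Module.finrank ℝ ℂ = 2 := Complex.finrank_real_complex
  set μ : Measure ℂ := MeasureTheory.Measure.hausdorffMeasure (2:ℝ)
  haveI : μ.IsAddHaarMeasure := by
    have h := isAddHaarMeasure_hausdorffMeasure (E := ℂ)
    simp only [hfin, Nat.cast_ofNat] at h
    exact h
  obtain ⟨c, hc⟩ : ∃ c : ℝ≥0, (volume : Measure ℂ) = c • μ := ⟨_, Measure.isAddLeftInvariant_eq_smul _ _⟩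
  have hmap : Measure.map Φ (volume.restrict S) ≤ (4 : ℝ≥0∞) • volume := by
    refine Measure.le_iff.2 fun A hA => ?_
    rw [Measure.map_apply hΦ.measurable hA, Measure.restrict_apply (hA.preimage hΦ.measurable),
      Measure.smul_apply, smul_eq_mul, hc, Measure.coe_nnreal_smul_apply, Measure.coe_nnreal_smul_apply,
      mul_left_comm]
    refine mul_le_mul_of_nonneg_left ?_ zero_le
    calc μ (Φ ⁻¹' A ∩ S) ≤ μ (Function.invFunOn Φ S '' (Φ '' (Φ ⁻¹' A ∩ S))) := measure_mono fun x hx =>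
          ⟨Φ x, mem_image_of_mem _ hx, hinj.leftInvOn_invFunOn hx.2⟩
      _ ≤ ((2 : ℝ≥0) : ℝ≥0∞) ^ (2:ℝ) * μ (Φ '' (Φ ⁻¹' A ∩ S)) :=
          (hinv.mono (image_mono inter_subset_right)).hausdorffMeasure_image_le (by norm_num)
      _ ≤ 4 * μ A := by
          refine mul_le_mul' (le_of_eq ?_) (measure_mono (image_subset_iff.2 inter_subset_left))
          rw [show (2:ℝ) = ((2:ℕ):ℝ) by norm_num, ENNReal.rpow_natCast]; norm_num
  rw [← lintegral_map hF hΦ.measurable]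
  exact (lintegral_mono' hmap le_rfl).trans_eq (lintegral_smul_measure _ _)

attribute [local irreducible] pairT rotT

/-- **the bound at one truncation** -/
theorem pairT_angular {ε a : ℝ} (hε : 0 < ε) (ha : ε ≤ a) {v : ℂ → ℂ} (hv : LipschitzWith 1 v)
    (hv1 : ∀ x, ‖v x‖ = 1) (f : 𝓢(ℂ, ℂ)) (x₀ : ℂ) {s : ℝ} (hs : 0 < s) :
    ∫ x in Metric.closedBall x₀ (1/2), ‖pairT ε a (v x) f x‖ ^ 2 ≤
      256 * ((1 + 2 * π * s) * (∫ z, ‖f z‖ ^ 2) + 2 * π / s * ∫ z, ‖angD x₀ f z‖ ^ 2) := by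
  set g := angD x₀ f
  set A := ∫ z, ‖f z‖ ^ 2
  set B := ∫ z, ‖g z‖ ^ 2
  set w : ℝ × ℂ → ℝ := fun p =>
    ((2 * π)⁻¹ + s) * ‖rotT ε a x₀ f p.1 p.2‖ ^ 2 + s⁻¹ * ‖rotT ε a x₀ g p.1 p.2‖ ^ 2
  have hc0 := continuous_rotT (a := a) hε x₀ f.continuous
  have hc1 := continuous_rotT (a := a) hε x₀ g.continuous
  have hwc : Continuous w := by fun_prop
  have hw0 : ∀ p, 0 ≤ w p := fun p => by positivity
  have hle : -π ≤ π := by linarith [pi_pos]
  have hA : 0 ≤ A := integral_nonneg fun _ => sq_nonneg _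
  have hB : 0 ≤ B := integral_nonneg fun _ => sq_nonneg _
  set F : ℂ → ℝ≥0∞ := fun y => ∫⁻ θ in Ioc (-π) π, ENNReal.ofReal (w (θ, y))
  have hFm : Measurable F := (hwc.measurable.ennreal_ofReal).lintegral_prod_left'
  have hpt : ∀ x, ENNReal.ofReal (‖pairT ε a (v x) f x‖ ^ 2) ≤ F (conj (v x) * (x - x₀)) := fun x => by
    set y := conj (v x) * (x - x₀)
    have hu : unitV (Complex.arg (v x)) = v x := by
      have := Complex.norm_mul_exp_arg_mul_I (v x)
      rwa [hv1, Complex.ofReal_one, one_mul] at this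
    have hx : x₀ + v x * y = x := by
      rw [← mul_assoc, Complex.mul_conj', hv1]; simp
    have hcy : Continuous fun θ : ℝ => (θ, y) := continuous_id.prodMk continuous_const
    have h := sobolev (h := fun θ => rotT ε a x₀ f θ y) (h' := fun θ => rotT ε a x₀ g θ y)
      (fun θ => hasDerivAt_rotT (a := a) hε x₀ f y θ) (hc1.comp hcy) hs
      (φ := Complex.arg (v x)) ⟨(Complex.neg_pi_lt_arg _).le, Complex.arg_le_pi _⟩
    rw [show rotT ε a x₀ f (Complex.arg (v x)) y = pairT ε a (v x) f x by rw [rotT, hu, hx]] at h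
    refine (ENNReal.ofReal_le_ofReal h).trans_eq ?_
    rw [intervalIntegral.integral_of_le hle]
    exact ofReal_integral_eq_lintegral_ofReal (f := fun θ => w (θ, y))
      (((hwc.comp hcy).integrableOn_Icc).mono_set Ioc_subset_Icc_self)
      (Eventually.of_forall fun θ => hw0 _)
  have hslice : ∀ (h : 𝓢(ℂ, ℂ)) (φ : ℝ), Integrable (fun y => ‖rotT ε a x₀ h φ y‖ ^ 2) ∧
      ∫ y, ‖rotT ε a x₀ h φ y‖ ^ 2 ≤ 64 * ∫ z, ‖h z‖ ^ 2 := fun h φ => by
    obtain ⟨i, b⟩ := pairT_L2 hε ha (e := unitV φ) h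
    set c : Circle := ⟨unitV φ, mem_sphere_zero_iff_norm.2 (norm_unitV φ)⟩
    have hmp := (rotation c).measurePreserving
    have hme : MeasurableEmbedding (rotation c) := (rotation c).toHomeomorph.measurableEmbedding
    have hr : ∀ y, rotT ε a x₀ h φ y = pairT ε a (unitV φ) h (x₀ + rotation c y) := fun y => by
      rw [rotT, rotation_apply]
    simp only [hr]
    refine ⟨(hmp.integrable_comp_emb hme).2 (i.comp_add_left x₀), le_of_eq_of_le ?_ b⟩
    rw [← integral_add_left_eq_self (fun z => ‖pairT ε a (unitV φ) h z‖ ^ 2) x₀]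
    exact hmp.integral_comp hme (fun y => ‖pairT ε a (unitV φ) h (x₀ + y)‖ ^ 2)
  have hint : ∫⁻ y, F y ≤ ENNReal.ofReal (2 * π) * ENNReal.ofReal (((2 * π)⁻¹ + s) * (64 * A) + s⁻¹ * (64 * B)) := by
    simp only [F]
    rw [lintegral_lintegral_swap ((hwc.comp continuous_swap).measurable.ennreal_ofReal.aemeasurable)]
    refine (lintegral_mono (g := fun _ => ENNReal.ofReal (((2 * π)⁻¹ + s) * (64 * A) + s⁻¹ * (64 * B))) fun θ => ?_).trans (le_of_eq ((setLIntegral_const _ _).trans ?_))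
    · obtain ⟨i0, b0⟩ := hslice f θ
      obtain ⟨i1, b1⟩ := hslice g θ
      refine le_of_eq_of_le (ofReal_integral_eq_lintegral_ofReal (f := fun y => w (θ, y))
        ((i0.const_mul _).add (i1.const_mul _)) (Eventually.of_forall fun y => hw0 _)).symm
        (ENNReal.ofReal_le_ofReal ?_)
      simp only [w]
      rw [integral_add (i0.const_mul _) (i1.const_mul _), integral_const_mul, integral_const_mul]
      exact add_le_add (mul_le_mul_of_nonneg_left b0 (by positivity)) (mul_le_mul_of_nonneg_left b1 (by positivity))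
    · rw [Real.volume_Ioc, mul_comm]; congr 2; ring
  have hvc := hv.continuous
  have hH : Continuous fun x => pairT ε a (v x) f x := continuous_pairT hε f.continuous hvc continuous_id
  rw [integral_eq_lintegral_of_nonneg_ae (Eventually.of_forall fun _ => sq_nonneg _)
    (hH.norm.pow 2).aestronglyMeasurable]
  refine ENNReal.toReal_le_of_le_ofReal ?_ ?_
  · positivity
  calc ∫⁻ x in Metric.closedBall x₀ (1/2), ENNReal.ofReal (‖pairT ε a (v x) f x‖ ^ 2)
      ≤ ∫⁻ x in Metric.closedBall x₀ (1/2), F (conj (v x) * (x - x₀)) := lintegral_mono hpt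
    _ ≤ 4 * ∫⁻ y, F y := lintegral_turn hv hv1 x₀ hFm
    _ ≤ 4 * (ENNReal.ofReal (2 * π) * ENNReal.ofReal (((2 * π)⁻¹ + s) * (64 * A) + s⁻¹ * (64 * B))) :=
        mul_le_mul_of_nonneg_left hint zero_le
    _ = _ := by
        rw [show (4 : ℝ≥0∞) = ENNReal.ofReal 4 by norm_num, ← ENNReal.ofReal_mul (by positivity),
          ← ENNReal.ofReal_mul (by norm_num)]
        congr 1
        field_simp
        ring

end Vale.Agent.P112
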