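import Mathlib

/-! Symmetrised truncated directional Hilbert transforms on the plane `ℂ`: a uniform `L²` bound for one direction,
Sobolev in the angle, and the bi-Lipschitz change of variables `x ↦ conj (v x) * (x - x₀)`. -/

open MeasureTheory Real Set Filter Complex ComplexConjugate FourierTransform LineDeriv SchwartzMap
open scoped Topology ENNReal NNReal RealInnerProductSpace SchwartzMap

namespace Vale.Agent.P112

/-- `∫_ε^a (f(z - te) - f(z + te)) dt/t`, with the kernel continued below `ε` -/
noncomputable def pairT (ε a : ℝ) (e : ℂ) (f : ℂ → ℂ) (z : ℂ) : ℂ :=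
  ∫ t in ε..a, (max ε t)⁻¹ • (f (z - t • e) - f (z + t • e))

lemma continuous_kernel {ε : ℝ} (hε : 0 < ε) : Continuous fun t : ℝ => (max ε t)⁻¹ :=
  (continuous_const.max continuous_id).inv₀ fun t => (lt_of_lt_of_le hε (le_max_left _ _)).ne'

lemma continuous_pairT {ε a : ℝ} (hε : 0 < ε) {X : Type*} [TopologicalSpace X] [FirstCountableTopology X]
    {f : ℂ → ℂ} (hf : Continuous f) {e z : X → ℂ} (he : Continuous e) (hz : Continuous z) :
    Continuous fun x => pairT ε a (e x) f (z x) := by
  unfold pairT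
  refine intervalIntegral.continuous_parametric_intervalIntegral_of_continuous' ?_ ε a
  exact ((continuous_kernel hε).comp continuous_snd).smul
    ((hf.comp ((hz.comp continuous_fst).sub (continuous_snd.smul (he.comp continuous_fst)))).sub
      (hf.comp ((hz.comp continuous_fst).add (continuous_snd.smul (he.comp continuous_fst)))))

/-- the sine integral -/
lemma sin_integral_bound {ε a : ℝ} (hε : 0 < ε) (ha : ε ≤ a) (d : ℝ) :
    |∫ t in ε..a, (max ε t)⁻¹ * Real.sin (d * t)| ≤ 4 := by
  set g := fun t => (max ε t)⁻¹ * Real.sin (d * t) with hg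
  have hgc : Continuous g := (continuous_kernel hε).mul (by fun_prop)
  rcases eq_or_ne d 0 with rfl | hd
  · rw [show g = fun _ => (0:ℝ) by funext t; simp [hg]]; simp
  set D := |d| with hD
  have hD0 : 0 < D := abs_pos.2 hd
  set c := max ε (min a D⁻¹) with hc
  have hc1 : ε ≤ c := le_max_left _ _
  have hc2 : c ≤ a := max_le ha (min_le_left _ _)
  rw [← intervalIntegral.integral_add_adjacent_intervals (hgc.intervalIntegrable ε c) (hgc.intervalIntegrable c a)]
  have h1 : |∫ t in ε..c, g t| ≤ 1 := by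
    rcases eq_or_lt_of_le hc1 with h | h
    · rw [← h]; simp
    · have hcD : c * D ≤ 1 := by
        have : c ≤ D⁻¹ := by
          rcases max_choice ε (min a D⁻¹) with h' | h'
          · exact absurd (hc.trans h') h.ne'
          · exact (hc.trans h').trans_le (min_le_right _ _)
        calc c * D ≤ D⁻¹ * D := mul_le_mul_of_nonneg_right this hD0.le
          _ = 1 := inv_mul_cancel₀ hD0.ne'
      have := intervalIntegral.norm_integral_le_of_norm_le_const (f := g) (C := D) (a := ε) (b := c) fun t ht => by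
        rw [uIoc_of_le hc1] at ht
        have ht0 : 0 < t := hε.trans ht.1
        rw [hg, Real.norm_eq_abs, abs_mul, max_eq_right ht.1.le, abs_of_pos (inv_pos.2 ht0)]
        calc t⁻¹ * |Real.sin (d * t)| ≤ t⁻¹ * |d * t| :=
              mul_le_mul_of_nonneg_left Real.abs_sin_le_abs (inv_pos.2 ht0).le
          _ = D := by rw [abs_mul, abs_of_pos ht0]; field_simp; rfl
      rw [Real.norm_eq_abs, abs_of_nonneg (sub_nonneg.2 hc1)] at this
      nlinarith [mul_pos hε hD0]
  have h2 : |∫ t in c..a, g t| ≤ 3 := by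
    rcases eq_or_lt_of_le hc2 with h | h
    · rw [h]; simp
    · have hDc : D⁻¹ ≤ c := by
        have h' : min a D⁻¹ ≤ c := le_max_right _ _
        rcases min_choice a D⁻¹ with h'' | h''
        · rw [h''] at h'; exact absurd h' (not_le.2 h)
        · rwa [h''] at h'
      have hc0 : 0 < c := hε.trans_le hc1
      have hone : 1 ≤ D * c := by rwa [inv_eq_one_div, div_le_iff₀ hD0, mul_comm] at hDc
      have hder : ∀ t ∈ uIcc c a, HasDerivAt (fun t => -Real.cos (d * t) / (d * t))
          (g t + Real.cos (d * t) / (d * t ^ 2)) t := fun t ht => by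
        rw [uIcc_of_le hc2] at ht
        have ht0 : 0 < t := hc0.trans_le ht.1
        have h1 : HasDerivAt (fun t => d * t) d t := by simpa using (hasDerivAt_id t).const_mul d
        refine ((h1.cos.neg).div h1 (mul_ne_zero hd ht0.ne')).congr_deriv ?_
        simp only [hg, max_eq_right (hc1.trans ht.1), Pi.neg_apply]
        field_simp
        ring
      have hq : ContinuousOn (fun t => Real.cos (d * t) / (d * t ^ 2)) (uIcc c a) :=
        ContinuousOn.div (by fun_prop) (by fun_prop) fun t ht => by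
          rw [uIcc_of_le hc2] at ht
          exact mul_ne_zero hd (pow_ne_zero 2 (hc0.trans_le ht.1).ne')
      have hsum := intervalIntegral.integral_eq_sub_of_hasDerivAt hder
        ((hgc.intervalIntegrable c a).add hq.intervalIntegrable)
      rw [intervalIntegral.integral_add (hgc.intervalIntegrable c a) hq.intervalIntegrable] at hsum
      have bnd : ∀ t, c ≤ t → |(-Real.cos (d * t) / (d * t))| ≤ 1 := fun t ht => by
        rw [abs_div, abs_neg, abs_mul, abs_of_pos (hc0.trans_le ht)]
        exact div_le_one_of_le₀ ((Real.abs_cos_le_one _).trans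
          (hone.trans (mul_le_mul_of_nonneg_left ht hD0.le))) (mul_nonneg hD0.le (hc0.trans_le ht).le)
      have hq2 : |∫ t in c..a, Real.cos (d * t) / (d * t ^ 2)| ≤ 1 := by
        have hi : IntervalIntegrable (fun t : ℝ => D⁻¹ * (t ^ 2)⁻¹) volume c a :=
          (continuousOn_const.mul ((continuousOn_id.pow 2).inv₀ fun t ht => by
            rw [uIcc_of_le hc2] at ht
            exact pow_ne_zero 2 (hc0.trans_le ht.1).ne')).intervalIntegrable
        rw [← Real.norm_eq_abs]
        refine (intervalIntegral.norm_integral_le_of_norm_le hc2 (Eventually.of_forall fun t ht => ?_) hi).trans ?_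
        · rw [Real.norm_eq_abs, abs_div, abs_mul, abs_pow, sq_abs, div_eq_mul_inv, mul_inv]
          exact mul_le_of_le_one_left (by positivity) (Real.abs_cos_le_one _)
        · rw [intervalIntegral.integral_const_mul, intervalIntegral.integral_eq_sub_of_hasDerivAt
            (f := fun t => -t⁻¹) (fun t ht => by
              rw [uIcc_of_le hc2] at ht
              exact (hasDerivAt_inv (hc0.trans_le ht.1).ne').neg.congr_deriv (neg_neg _))]
          · have : D⁻¹ * c⁻¹ ≤ 1 := by rw [← mul_inv]; exact inv_le_one_of_one_le₀ hone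
            have : 0 ≤ D⁻¹ * a⁻¹ := mul_nonneg (inv_nonneg.2 hD0.le) (inv_nonneg.2 (hε.le.trans ha))
            linarith
          · refine (((continuousOn_id : ContinuousOn (fun t : ℝ => t) _).pow 2).inv₀ fun t ht => ?_).intervalIntegrable
            rw [uIcc_of_le hc2] at ht
            exact pow_ne_zero 2 (hc0.trans_le ht.1).ne'
      have b1 := bnd c le_rfl
      have b2 := bnd a hc2
      rw [abs_le] at b1 b2 hq2 ⊢
      constructor <;> linarith
  exact (abs_add_le _ _).trans (by linarith)

/-- Plancherel for a continuous integrable function with integrable transform -/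
lemma plancherel {u : ℂ → ℂ} (hc : Continuous u) (hu : Integrable u) (hu' : Integrable (𝓕 u)) :
    ∫ ξ, ‖𝓕 u ξ‖ ^ 2 = ∫ x, ‖u x‖ ^ 2 := by
  have h := VectorFourier.integral_sesq_fourierIntegral_eq_neg_flip (μ := (volume : Measure ℂ))
    (ν := (volume : Measure ℂ)) (e := 𝐞) (L := innerₗ ℂ) (innerSL ℂ (E := ℂ)) Real.continuous_fourierChar
    continuous_inner hu hu'
  have e1 : ∀ x, VectorFourier.fourierIntegral 𝐞 volume (-(innerₗ ℂ).flip) (𝓕 u) x = 𝓕⁻ (𝓕 u) x := fun x => by
    simp only [Real.fourierInv_eq, VectorFourier.fourierIntegral, LinearMap.neg_apply, LinearMap.flip_apply,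
      innerₗ_apply_apply, neg_neg, real_inner_comm]
  simp only [e1, hc.fourierInv_fourier_eq hu hu'] at h
  change ∫ ξ, inner ℂ (𝓕 u ξ) (𝓕 u ξ) = ∫ x, inner ℂ (u x) (u x) at h
  simp only [inner_self_eq_norm_sq_to_K] at h
  apply Complex.ofRealLI.injective
  simpa [← LinearIsometry.integral_comp_comm] using h

/-- **one direction** -/
lemma pairT_L2 {ε a : ℝ} (hε : 0 < ε) (ha : ε ≤ a) {e : ℂ} (f : 𝓢(ℂ, ℂ)) :
    Integrable (fun z => ‖pairT ε a e f z‖ ^ 2) ∧
      ∫ z, ‖pairT ε a e f z‖ ^ 2 ≤ 64 * ∫ z, ‖f z‖ ^ 2 := by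
  set u := pairT ε a e f
  set k : ℝ → ℝ := fun t => (max ε t)⁻¹
  set P : ℝ → ℂ → ℂ := fun t z => k t • (f (z - t • e) - f (z + t • e))
  set Q := fun p : ℝ × ℂ => P p.1 p.2
  have hk := continuous_kernel hε
  have hQc : Continuous Q := ((hk).comp continuous_fst).smul
    ((f.continuous.comp (continuous_snd.sub (continuous_fst.smul continuous_const))).sub
      (f.continuous.comp (continuous_snd.add (continuous_fst.smul continuous_const))))
  have hi1 : ∀ t : ℝ, Integrable (P t) := fun t =>
    Integrable.smul (k t) ((f.integrable.comp_sub_right (t • e)).sub (f.integrable.comp_add_right (t • e)))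
  have hQ : Integrable Q ((volume.restrict (Ioc ε a)).prod volume) := by
    refine (integrable_prod_iff hQc.aestronglyMeasurable).2 ⟨Eventually.of_forall hi1, ?_⟩
    refine Integrable.mono' (g := fun _ => ε⁻¹ * (2 * ∫ z, ‖f z‖)) (integrable_const _)
      (hQc.norm.aestronglyMeasurable.integral_prod_right') (Eventually.of_forall fun t => ?_)
    rw [Real.norm_of_nonneg (integral_nonneg fun _ => norm_nonneg _)]
    calc ∫ z, ‖P t z‖ ≤ ∫ z, ε⁻¹ * (‖f (z - t • e)‖ + ‖f (z + t • e)‖) := by
          refine integral_mono (hi1 t).norm (((f.integrable.comp_sub_right _).norm.add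
            (f.integrable.comp_add_right _).norm).const_mul _) fun z => ?_
          simp only [P, norm_smul, k, Real.norm_eq_abs, abs_inv]
          exact mul_le_mul (inv_anti₀ hε ((le_max_left _ _).trans (le_abs_self _))) (norm_sub_le _ _)
            (norm_nonneg _) (inv_nonneg.2 hε.le)
      _ = _ := by
          rw [integral_const_mul, integral_add (f.integrable.comp_sub_right _).norm
            (f.integrable.comp_add_right _).norm, integral_sub_right_eq_self (fun z => ‖f z‖),
            integral_add_right_eq_self (fun z => ‖f z‖)]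
          ring
  have hue : ∀ z, u z = ∫ t, P t z ∂(volume.restrict (Ioc ε a)) := fun z =>
    intervalIntegral.integral_of_le ha
  have hu : Integrable u := hQ.integral_prod_right.congr (Eventually.of_forall fun z => (hue z).symm)
  have huc : Continuous u := continuous_pairT hε f.continuous continuous_const continuous_id
  -- the multiplier
  set m : ℂ → ℂ := fun ξ => -2 * Complex.I * (∫ t in ε..a, k t * Real.sin (2 * π * ⟪e, ξ⟫ * t) : ℝ)
  have hm : ∀ ξ, ‖m ξ‖ ≤ 8 := fun ξ => by
    simp only [m, norm_mul, norm_neg, Complex.norm_I, Complex.norm_real, Real.norm_eq_abs, mul_one,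
      Complex.norm_ofNat]
    linarith [sin_integral_bound hε ha (2 * π * ⟪e, ξ⟫)]
  have hF : ∀ ξ, 𝓕 u ξ = m ξ * 𝓕 (⇑f) ξ := fun ξ => by
    have hsh : ∀ c : ℂ, ∫ z, (𝐞 (-⟪z, ξ⟫) : ℂ) * f (z + c) = (𝐞 ⟪c, ξ⟫ : ℂ) * 𝓕 (⇑f) ξ := fun c => by
      rw [← integral_add_right_eq_self _ (-c), Real.fourier_eq, ← integral_const_mul]
      refine integral_congr_ae (Eventually.of_forall fun z => ?_)
      simp only [neg_add_cancel_right, Circle.smul_def, smul_eq_mul, inner_add_left, inner_neg_left]
      rw [neg_add, neg_neg, AddChar.map_add_eq_mul, Circle.coe_mul]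
      ring
    have hfi : ∀ c : ℂ, Integrable (fun z => (𝐞 (-⟪z, ξ⟫) : ℂ) * f (z + c)) := fun c => by
      simpa only [Circle.smul_def, smul_eq_mul] using
        (Real.fourierIntegral_convergent_iff ξ).2 (f.integrable.comp_add_right c)
    have hin : ∀ t : ℝ, ∫ z, (𝐞 (-⟪z, ξ⟫) : ℂ) * P t z =
        (((k t : ℝ) : ℂ) * (-2 * Complex.I * (Real.sin (2 * π * ⟪e, ξ⟫ * t) : ℝ))) * 𝓕 (⇑f) ξ := fun t => by
      rw [show (fun z => (𝐞 (-⟪z, ξ⟫) : ℂ) * P t z) = fun z => (k t : ℂ) *
        ((𝐞 (-⟪z, ξ⟫) : ℂ) * f (z + -(t • e)) - (𝐞 (-⟪z, ξ⟫) : ℂ) * f (z + t • e)) by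
          funext z; simp only [P, sub_eq_add_neg z, Complex.real_smul]; ring]
      rw [integral_const_mul, integral_sub (hfi _) (hfi _), hsh, hsh, inner_neg_left, real_inner_smul_left]
      simp only [Real.fourierChar_apply]
      rw [Complex.exp_mul_I, Complex.exp_mul_I, ← Complex.ofReal_cos, ← Complex.ofReal_sin, ← Complex.ofReal_cos,
        ← Complex.ofReal_sin, mul_neg, Real.cos_neg, Real.sin_neg, show 2 * π * (t * ⟪e, ξ⟫) = 2 * π * ⟪e, ξ⟫ * t by
        ring]
      push_cast
      ring
    calc 𝓕 u ξ = ∫ z, ∫ t, (𝐞 (-⟪z, ξ⟫) : ℂ) * P t z ∂(volume.restrict (Ioc ε a)) := by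
          rw [Real.fourier_eq]
          refine integral_congr_ae (Eventually.of_forall fun z => ?_)
          simp only [Circle.smul_def, smul_eq_mul, hue, integral_const_mul]
      _ = ∫ t, (∫ z, (𝐞 (-⟪z, ξ⟫) : ℂ) * P t z) ∂(volume.restrict (Ioc ε a)) := by
          refine (integral_integral_swap ?_).symm
          refine hQ.norm.mono' (Continuous.aestronglyMeasurable (by fun_prop)) (Eventually.of_forall fun p => ?_)
          simp only [Q, Function.uncurry, norm_mul, Circle.norm_coe, one_mul]; exact le_rfl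
      _ = _ := by
          simp only [hin]
          rw [← intervalIntegral.integral_of_le ha, intervalIntegral.integral_mul_const]
          congr 1
          simp only [m, ← intervalIntegral.integral_ofReal, ← intervalIntegral.integral_const_mul]
          exact intervalIntegral.integral_congr fun t _ => by push_cast; ring
  have hfF : Integrable (𝓕 (⇑f)) := by rw [← SchwartzMap.fourier_coe]; exact (𝓕 f).integrable
  have hFb : ∀ ξ, ‖𝓕 u ξ‖ ≤ 8 * ‖𝓕 (⇑f) ξ‖ := fun ξ => by
    rw [hF, norm_mul]; exact mul_le_mul_of_nonneg_right (hm ξ) (norm_nonneg _)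
  have hFc : Continuous (𝓕 u) :=
    VectorFourier.fourierIntegral_continuous Real.continuous_fourierChar continuous_inner hu
  have hu' : Integrable (𝓕 u) :=
    (hfF.norm.const_mul 8).mono' hFc.aestronglyMeasurable (Eventually.of_forall hFb)
  obtain ⟨K, hK⟩ : ∃ K, ∀ z, ‖u z‖ ≤ K := by
    refine ⟨ε⁻¹ * (2 * SchwartzMap.seminorm ℝ 0 0 f) * |a - ε|,
      fun z => intervalIntegral.norm_integral_le_of_norm_le_const fun t _ => ?_⟩
    rw [norm_smul, Real.norm_eq_abs, abs_inv, abs_of_pos (lt_max_of_lt_left hε), two_mul]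
    exact mul_le_mul (inv_anti₀ hε (le_max_left _ _)) ((norm_sub_le _ _).trans
      (add_le_add (f.norm_le_seminorm ℝ _) (f.norm_le_seminorm ℝ _))) (norm_nonneg _) (inv_nonneg.2 hε.le)
  refine ⟨(hu.norm.const_mul K).mono' (huc.norm.pow 2).aestronglyMeasurable
    (Eventually.of_forall fun z => ?_), ?_⟩
  · rw [Real.norm_eq_abs, abs_pow, abs_norm, pow_two]
    exact mul_le_mul_of_nonneg_right (hK z) (norm_nonneg _)
  rw [← plancherel huc hu hu']
  have h2 : ∫ ξ, ‖𝓕 (⇑f) ξ‖ ^ 2 = ∫ x, ‖f x‖ ^ 2 := by
    rw [← SchwartzMap.fourier_coe]; exact SchwartzMap.integral_norm_sq_fourier f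
  rw [← h2, ← integral_const_mul]
  refine integral_mono_of_nonneg (Eventually.of_forall fun _ => sq_nonneg _) ?_
    (Eventually.of_forall fun ξ => ?_)
  · rw [← SchwartzMap.fourier_coe]
    exact (((𝓕 f).memLp 2 volume).integrable_norm_pow (by norm_num)).const_mul 64
  · show ‖𝓕 u ξ‖ ^ 2 ≤ 64 * ‖𝓕 (⇑f) ξ‖ ^ 2
    nlinarith [hFb ξ, norm_nonneg (𝓕 u ξ)]

end Vale.Agent.P112
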